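import Vale.Agent.P004X.P004G.H175.ZT

/-!
# P004X, package G10: module Z1 (`StTF → StFold`)
-/

open Real MeasureTheory Set
open scoped ENNReal

namespace P004G
namespace Z

lemma cs' {ι : Type*} (x b y : ι → ℝ≥0∞) (h : ∀ i, x i ^ 2 ≤ b i * y i) :
    (∑' i, x i) ^ 2 ≤ (∑' i, b i) * ∑' i, y i := by
  let _ : MeasurableSpace ι := ⊤
  have h1 := ENNReal.lintegral_mul_le_Lp_mul_Lq (Measure.count : Measure ι)
    Real.HolderConjugate.two_two (f := fun i => b i ^ (1 / 2 : ℝ))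
    (g := fun i => y i ^ (1 / 2 : ℝ)) measurable_from_top.aemeasurable
    measurable_from_top.aemeasurable
  rw [lintegral_count' measurable_from_top, lintegral_count' measurable_from_top,
    lintegral_count' measurable_from_top] at h1
  have e2 : ∀ z : ℝ≥0∞, (z ^ (1 / 2 : ℝ)) ^ (2 : ℝ) = z := by
    intro z
    rw [← ENNReal.rpow_mul]; norm_num
  simp only [e2] at h1
  have h2 : ∑' i, x i ≤
      ∑' i, ((fun i => b i ^ (1 / 2 : ℝ)) * fun i => y i ^ (1 / 2 : ℝ)) i := by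
    refine ENNReal.tsum_le_tsum fun i => ?_
    simp only [Pi.mul_apply]
    rw [← ENNReal.mul_rpow_of_nonneg _ _ (by norm_num)]
    calc x i = (x i ^ (2 : ℝ)) ^ (1 / 2 : ℝ) := by rw [← ENNReal.rpow_mul]; norm_num
      _ ≤ (b i * y i) ^ (1 / 2 : ℝ) := by
        apply ENNReal.rpow_le_rpow _ (by norm_num)
        exact_mod_cast h i
  calc (∑' i, x i) ^ 2 ≤ ((∑' i, b i) ^ (1 / 2 : ℝ) * (∑' i, y i) ^ (1 / 2 : ℝ)) ^ 2 := by
        gcongr
        exact h2.trans h1
    _ = _ := by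
      rw [mul_pow, ← ENNReal.rpow_natCast, ← ENNReal.rpow_natCast, ← ENNReal.rpow_mul,
        ← ENNReal.rpow_mul]
      norm_num

/-- the mass of `G` beyond `t` -/
noncomputable def J2 (G : ℝ → ℝ) (t : ℝ) : ℝ≥0∞ := ∫⁻ u in Ioi t, ENNReal.ofReal (G u ^ 2 * u)

lemma J2_anti (G : ℝ → ℝ) {s t : ℝ} (h : s ≤ t) : J2 G t ≤ J2 G s :=
  lintegral_mono_set (Ioi_subset_Ioi h)

lemma J2_scale (G : ℝ → ℝ) {t a : ℝ} (ha : 0 < a) :
    ∫⁻ u in Ioi t, ENNReal.ofReal (G (a * u) ^ 2 * u) =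
      ENNReal.ofReal (a ^ 2)⁻¹ * J2 G (a * t) := by
  have hcv := lintegral_image_eq_lintegral_abs_deriv_mul (s := Ioi t) measurableSet_Ioi
    (f := fun u : ℝ => a * u) (f' := fun _ => a) (fun w _ => by
      have := ((hasDerivAt_id w).const_mul a).hasDerivWithinAt (s := Ioi t)
      simpa using this) (mul_right_injective₀ ha.ne').injOn
    (fun w => ENNReal.ofReal (G w ^ 2 * w))
  rw [Set.image_mul_left_Ioi ha] at hcv
  unfold J2
  rw [hcv, ← lintegral_const_mul' _ _ ENNReal.ofReal_ne_top]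
  refine lintegral_congr fun u => ?_
  rw [abs_of_pos ha, ← ENNReal.ofReal_mul ha.le, ← ENNReal.ofReal_mul (by positivity)]
  congr 1
  field_simp

lemma ofReal_abs_le_tsum {f : ℕ → ℝ} {s : ℝ} (h : HasSum f s) :
    ENNReal.ofReal |s| ≤ ∑' a, ENNReal.ofReal |f a| := by
  rcases eq_or_ne (∑' a, ENNReal.ofReal |f a|) ⊤ with h1 | h1
  · rw [h1]; exact le_top
  · have h2 : Summable fun a => |f a| := by
      have h3 := ENNReal.summable_toReal h1
      refine h3.congr fun a => ?_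
      rw [ENNReal.toReal_ofReal (abs_nonneg _)]
    rw [← ENNReal.ofReal_tsum_of_nonneg (fun a => abs_nonneg _) h2]
    apply ENNReal.ofReal_le_ofReal
    rw [← h.tsum_eq]
    exact norm_tsum_le_tsum_norm (f := f) (by simpa only [Real.norm_eq_abs] using h2)

lemma J2_comb {F G : ℝ → ℝ} (hG : Measurable G) (f : ℕ → ℝ) (hf : f 0 = 0)
    (h : ∀ u, 0 < u → HasSum (fun a : ℕ => f a * G (a * u)) (F u)) {t : ℝ} (ht : 0 ≤ t) :
    J2 F t ≤ (∑' a : ℕ, ENNReal.ofReal (|f a| / a)) ^ 2 * J2 G t := by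
  set W : ℝ≥0∞ := ∑' a : ℕ, ENNReal.ofReal (|f a| / a) with hW
  have h1 : ∀ u, 0 < u → ENNReal.ofReal (F u ^ 2 * u) ≤
      W * ∑' a : ℕ, ENNReal.ofReal (|f a| * a) * ENNReal.ofReal (G (a * u) ^ 2 * u) := by
    intro u hu
    have e1 : ENNReal.ofReal (F u ^ 2 * u) = ENNReal.ofReal |F u| ^ 2 * ENNReal.ofReal u := by
      rw [← ENNReal.ofReal_pow (abs_nonneg _), sq_abs, ← ENNReal.ofReal_mul (sq_nonneg _)]
    have h2 := cs' (fun a : ℕ => ENNReal.ofReal |f a * G (a * u)|)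
      (fun a : ℕ => ENNReal.ofReal (|f a| / a))
      (fun a : ℕ => ENNReal.ofReal (|f a| * a * G (a * u) ^ 2)) (by
        intro a
        rw [← ENNReal.ofReal_pow (abs_nonneg _), ← ENNReal.ofReal_mul (by positivity)]
        apply ENNReal.ofReal_le_ofReal
        rcases Nat.eq_zero_or_pos a with rfl | ha
        · simp [hf]
        · have ha0 : (0 : ℝ) < a := by exact_mod_cast ha
          rw [sq_abs, mul_pow, ← sq_abs (f a)]
          apply le_of_eq
          field_simp)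
    rw [e1]
    calc ENNReal.ofReal |F u| ^ 2 * ENNReal.ofReal u ≤
        (∑' a : ℕ, ENNReal.ofReal |f a * G (a * u)|) ^ 2 * ENNReal.ofReal u := by
          gcongr
          exact ofReal_abs_le_tsum (h u hu)
      _ ≤ (W * ∑' a : ℕ, ENNReal.ofReal (|f a| * a * G (a * u) ^ 2)) * ENNReal.ofReal u := by
          gcongr
      _ = _ := by
          rw [mul_assoc, ← ENNReal.tsum_mul_right (a := ENNReal.ofReal u)]
          congr 1
          refine tsum_congr fun a => ?_
          rw [← ENNReal.ofReal_mul (by positivity), ← ENNReal.ofReal_mul (by positivity)]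
          congr 1
          ring
  unfold J2
  calc ∫⁻ u in Ioi t, ENNReal.ofReal (F u ^ 2 * u) ≤ ∫⁻ u in Ioi t,
        W * ∑' a : ℕ, ENNReal.ofReal (|f a| * a) * ENNReal.ofReal (G (a * u) ^ 2 * u) :=
        setLIntegral_mono' measurableSet_Ioi fun u hu => h1 u (lt_of_le_of_lt ht hu)
    _ = W * ∑' a : ℕ, ENNReal.ofReal (|f a| * a) *
        ∫⁻ u in Ioi t, ENNReal.ofReal (G (a * u) ^ 2 * u) := by
        rw [lintegral_const_mul, lintegral_tsum]
        · congr 1
          refine tsum_congr fun a => ?_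
          rw [lintegral_const_mul' _ _ ENNReal.ofReal_ne_top]
        · intro a
          apply Measurable.aemeasurable
          fun_prop
        · fun_prop
    _ ≤ W * ∑' a : ℕ, ENNReal.ofReal (|f a| / a) *
        ∫⁻ u in Ioi t, ENNReal.ofReal (G u ^ 2 * u) := by
        apply mul_le_mul_right
        refine ENNReal.tsum_le_tsum fun a => ?_
        rcases Nat.eq_zero_or_pos a with rfl | ha
        · simp [hf]
        · have ha0 : (0 : ℝ) < a := by exact_mod_cast ha
          have ha1 : (1 : ℝ) ≤ a := by exact_mod_cast ha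
          rw [J2_scale G ha0, ← mul_assoc, ← ENNReal.ofReal_mul (by positivity)]
          have e : |f a| * a * ((a : ℝ) ^ 2)⁻¹ = |f a| / a := by field_simp
          rw [e]
          gcongr
          exact J2_anti G (by nlinarith)
    _ = _ := by
        rw [ENNReal.tsum_mul_right, ← hW]
        ring

lemma J2_fold (f : ℝ → ℝ) {Q κ : ℝ} (hQ : 0 < Q) (hκ : κ = 1 ∨ κ = -1)
    (h : ∀ u : ℝ, 0 < u → f u = κ / (Q * u ^ 2) * f (1 / (Q * u))) :
    J2 f 0 = 2 * J2 f (1 / √Q) := by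
  set a : ℝ := 1 / √Q with ha
  have hsQ : 0 < √Q := Real.sqrt_pos.2 hQ
  have ha0 : 0 < a := by positivity
  have haa : Q * a * a = 1 := by
    rw [ha]
    field_simp
    rw [Real.sq_sqrt hQ.le]
  set g : ℝ → ℝ≥0∞ := fun u => ENNReal.ofReal (f u ^ 2 * u) with hg
  have himage : (fun w : ℝ => 1 / (Q * w)) '' (Ioi a) = Ioo 0 a := by
    ext x
    simp only [Set.mem_image, Set.mem_Ioi, Set.mem_Ioo]
    constructor
    · rintro ⟨w, hw, rfl⟩
      have hw0 : 0 < w := ha0.trans hw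
      refine ⟨by positivity, ?_⟩
      rw [div_lt_iff₀ (by positivity)]
      nlinarith [mul_pos hQ ha0]
    · rintro ⟨hx0, hxa⟩
      refine ⟨1 / (Q * x), ?_, ?_⟩
      · rw [lt_div_iff₀ (by positivity)]
        nlinarith [mul_pos hQ ha0]
      · field_simp
  have hder : ∀ w ∈ Ioi a, HasDerivWithinAt (fun w : ℝ => 1 / (Q * w)) (-(1 / (Q * w ^ 2)))
      (Ioi a) w := by
    intro w hw
    have hw0 : w ≠ 0 := (ha0.trans hw).ne'
    have h1 : HasDerivAt (fun w : ℝ => (Q * w)⁻¹) (-(Q * 1) / (Q * w) ^ 2) w :=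
      ((hasDerivAt_id w).const_mul Q).inv (by positivity)
    have h2 : HasDerivAt (fun w : ℝ => 1 / (Q * w)) (-(1 / (Q * w ^ 2))) w := by
      have e : (fun w : ℝ => 1 / (Q * w)) = fun w : ℝ => (Q * w)⁻¹ := by
        ext; rw [one_div]
      rw [e]
      convert h1 using 1
      field_simp
    exact h2.hasDerivWithinAt
  have hinj : Set.InjOn (fun w : ℝ => 1 / (Q * w)) (Ioi a) := by
    intro x hx y hy hxy
    have hx0 : x ≠ 0 := (ha0.trans hx).ne'
    have hy0 : y ≠ 0 := (ha0.trans hy).ne'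
    simp only at hxy
    field_simp at hxy
    exact hxy.symm
  have hcv := lintegral_image_eq_lintegral_abs_deriv_mul measurableSet_Ioi hder hinj g
  rw [himage] at hcv
  have h1 : ∫⁻ x in Ioo 0 a, g x = ∫⁻ x in Ioi a, g x := by
    rw [hcv]
    apply setLIntegral_congr_fun measurableSet_Ioi
    intro w hw
    have hw0 : 0 < w := ha0.trans hw
    simp only [hg]
    rw [abs_neg, abs_of_pos (by positivity), ← ENNReal.ofReal_mul (by positivity)]
    congr 1
    have hκ2 : κ ^ 2 = 1 := by rcases hκ with h | h <;> rw [h] <;> norm_num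
    have hfe := h w hw0
    have : f w ^ 2 = 1 / (Q * w ^ 2) ^ 2 * f (1 / (Q * w)) ^ 2 := by
      rw [hfe, mul_pow, div_pow, hκ2]
    rw [this]
    field_simp
  have h2 : J2 f 0 = (∫⁻ x in Ioo 0 a, g x) + ∫⁻ x in Ioi a, g x := by
    unfold J2
    rw [← Ioc_union_Ioi_eq_Ioi ha0.le,
      lintegral_union measurableSet_Ioi (Set.Ioc_disjoint_Ioi le_rfl)]
    congr 1
    exact setLIntegral_congr (Ioo_ae_eq_Ioc (μ := volume) (a := (0 : ℝ)) (b := a)).symm
  rw [h2, h1, two_mul]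
  rfl

/-! ### the constants -/

/-- the weights `∏ (k + 1) ((p - δ) / p)^k`, as an arithmetic function -/
noncomputable def wtF (η : ℝ) : ArithmeticFunction ℝ :=
  mf (fun p k => (k + 1) * (((p : ℝ) - dl η) / p) ^ k)

/-- the summand of the constants -/
noncomputable def wt (η : ℝ) (n : ℕ) : ℝ := wtF η n

lemma wt_zero (η : ℝ) : wt η 0 = 0 := by unfold wt; simp

lemma wt_one (η : ℝ) : wt η 1 = 1 := (mf_mult _).1

lemma wt_mul (η : ℝ) {m n : ℕ} (h : m.Coprime n) : wt η (m * n) = wt η m * wt η n :=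
  (mf_mult _).2 h

lemma wt_pp (η : ℝ) {p : ℕ} (hp : p.Prime) (k : ℕ) :
    wt η (p ^ k) = (k + 1) * (((p : ℝ) - dl η) / p) ^ k := by
  rcases eq_or_ne k 0 with rfl | hk
  · rw [pow_zero, wt_one]; simp
  · exact mf_pp _ hp hk

lemma base_pos {η : ℝ} {p : ℕ} (hp : p.Prime) : 0 < ((p : ℝ) - dl η) / p := by
  have h1 := one_le_sub (η := η) hp
  have h2 : (0 : ℝ) < p := by exact_mod_cast hp.pos
  apply div_pos _ h2
  linarith

lemma wt_nonneg (η : ℝ) (n : ℕ) : 0 ≤ wt η n := by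
  induction n using Nat.recOnPosPrimePosCoprime with
  | prime_pow p k hp hk =>
    rw [wt_pp η hp]
    have := base_pos (η := η) hp
    positivity
  | zero => rw [wt_zero]
  | one => rw [wt_one]; norm_num
  | coprime a b ha hb hab iha ihb =>
    rw [wt_mul η hab]
    exact mul_nonneg iha ihb

/-- comparison of a multiplicative function with the weights -/
lemma le_wt {η : ℝ} {f : ℕ → ℝ} (f0 : f 0 = 0) (f1 : f 1 = 1)
    (fm : ∀ m n : ℕ, m.Coprime n → f (m * n) = f m * f n)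
    (fp : ∀ p k : ℕ, p.Prime → k ≠ 0 → |f (p ^ k)| ≤ (k + 1) * ((p : ℝ) - dl η) ^ k) (n : ℕ) :
    |f n| ≤ n * wt η n := by
  induction n using Nat.recOnPosPrimePosCoprime with
  | prime_pow p k hp hk =>
    rw [wt_pp η hp]
    have h2 : (0 : ℝ) < p := by exact_mod_cast hp.pos
    refine (fp p k hp hk.ne').trans (le_of_eq ?_)
    rw [div_pow]
    push_cast
    field_simp
  | zero => rw [f0]; simp
  | one => rw [f1, wt_one]; simp
  | coprime a b ha hb hab iha ihb =>
    rw [fm a b hab, wt_mul η hab, abs_mul]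
    push_cast
    calc |f a| * |f b| ≤ (a * wt η a) * (b * wt η b) :=
          mul_le_mul iha ihb (abs_nonneg _) (mul_nonneg (Nat.cast_nonneg _) (wt_nonneg _ _))
      _ = _ := by ring

lemma A_le_wt {η : ℝ} {A : ℕ → ℝ} (hη : 0 < η) (hA : LD η A) (n : ℕ) : |A n| ≤ n * wt η n :=
  le_wt hA.zero hA.one hA.mul (fun _ k hp _ => pp_bound hη hA hp k) n

lemma div_le_wt {η x : ℝ} {n : ℕ} (h : |x| ≤ n * wt η n) : |x| / n ≤ wt η n := by
  rcases Nat.eq_zero_or_pos n with rfl | hn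
  · simp [wt_zero]
  · have : (0 : ℝ) < n := by exact_mod_cast hn
    rw [div_le_iff₀ this]
    linarith

lemma summable_wt {η : ℝ} (hη : 0 < η) (S : ℕ) :
    Summable ((Nat.factoredNumbers S.primeFactors : Set ℕ).indicator (wt η)) := by
  rw [← summable_subtype_iff_indicator]
  have h := (EulerProduct.summable_and_hasSum_factoredNumbers_prod_filter_prime_tsum (f := wt η)
    (wt_one η) (fun {m n} hmn => wt_mul η hmn) (fun {p} hp => ?_) S.primeFactors).1
  · refine h.congr fun x => ?_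
    rw [Real.norm_of_nonneg (wt_nonneg _ _)]
    rfl
  · have hp1 : (1 : ℝ) < p := by exact_mod_cast hp.one_lt
    have hp0 : (0 : ℝ) < p := by linarith
    have hb := base_pos (η := η) hp
    have hr : ‖((p : ℝ) - dl η) / p‖ < 1 := by
      rw [Real.norm_of_nonneg hb.le, div_lt_one hp0]
      linarith [dl_pos hη]
    have h2 := (summable_pow_mul_geometric_of_norm_lt_one 1 hr).add
      (summable_pow_mul_geometric_of_norm_lt_one 0 hr)
    refine h2.congr fun k => ?_
    rw [Real.norm_of_nonneg (wt_nonneg _ _), wt_pp η hp]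
    ring

/-- the constant of the smooth part -/
noncomputable def W2 (η : ℝ) (S : ℕ) : ℝ≥0∞ :=
  ∑' a : ℕ, ENNReal.ofReal ((Nat.factoredNumbers S.primeFactors : Set ℕ).indicator (wt η) a)

lemma W2_ne_top {η : ℝ} (hη : 0 < η) (S : ℕ) : W2 η S ≠ ⊤ := (summable_wt hη S).tsum_ofReal_ne_top

lemma sf_le_wt {η : ℝ} (S : ℕ) {A : ℕ → ℝ} (hη : 0 < η) (hA : LD η A) (a : ℕ) :
    |sf S A a| / a ≤ (Nat.factoredNumbers S.primeFactors : Set ℕ).indicator (wt η) a := by
  by_cases h : a ∈ (Nat.factoredNumbers S.primeFactors : Set ℕ)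
  · rw [Set.indicator_of_mem h]
    apply div_le_wt
    rw [Nat.mem_factoredNumbers_iff_primeFactors_subset] at h
    rw [sf_apply S A h.1 h.2]
    exact A_le_wt hη hA a
  · rw [Set.indicator_of_notMem h]
    have h0 : sf S A a = 0 := by
      by_contra h1
      apply h
      rw [Nat.mem_factoredNumbers_iff_primeFactors_subset]
      refine ⟨?_, ?_⟩
      · rintro rfl
        simp at h1
      · by_contra h2
        exact h1 (sf_apply' S A h2)
    rw [h0]
    simp

lemma sf_le_W2 {η : ℝ} (S : ℕ) {A : ℕ → ℝ} (hη : 0 < η) (hA : LD η A) :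
    ∑' a : ℕ, ENNReal.ofReal (|sf S A a| / a) ≤ W2 η S :=
  ENNReal.tsum_le_tsum fun a => ENNReal.ofReal_le_ofReal (sf_le_wt S hη hA a)

/-- the constant of the inverse Euler factors -/
noncomputable def W1 (η : ℝ) (S : ℕ) : ℝ≥0∞ := ∑ a ∈ (K0 S).divisors, ENNReal.ofReal (wt η a)

lemma W1_ne_top (η : ℝ) (S : ℕ) : W1 η S ≠ ⊤ :=
  (ENNReal.sum_lt_top.2 fun _ _ => ENNReal.ofReal_lt_top).ne

lemma ee_le_wt {η : ℝ} (S : ℕ) {A : ℕ → ℝ} (hη : 0 < η) (hA : LD η A) (a : ℕ) :
    |ee S A a| / a ≤ wt η a := by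
  apply div_le_wt
  refine le_wt (by simp) (mf_mult _).1 (fun m n h => (mf_mult _).2 h) (fun p k hp hk => ?_) a
  have hb := one_le_sub (η := η) hp
  have h0 : (0 : ℝ) ≤ (k + 1) * ((p : ℝ) - dl η) ^ k := by positivity
  rw [mf_pp _ hp hk]
  unfold gl
  by_cases h1 : p ∣ S
  · rw [if_neg (by simpa using h1)]
    rcases eq_or_ne k 1 with rfl | h2
    · rw [if_pos rfl, abs_neg]
      have := pp_bound hη hA hp 1
      rwa [pow_one] at this
    rcases eq_or_ne k 2 with rfl | h3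
    · rw [if_neg h2, if_pos rfl]
      refine (abs_Dl_le hA hp).trans ?_
      have hp2 : (2 : ℝ) ≤ p := by exact_mod_cast hp.two_le
      have h4 := sqrt_le_sub hp2 (dl_le (η := η))
      have h5 : (p : ℝ) = √(p : ℝ) ^ 2 := (Real.sq_sqrt (by positivity)).symm
      have h6 : √(p : ℝ) ^ 2 ≤ ((p : ℝ) - dl η) ^ 2 := pow_le_pow_left₀ (Real.sqrt_nonneg _) h4 2
      rw [← h5] at h6
      push_cast
      nlinarith [sq_nonneg ((p : ℝ) - dl η)]
    · rw [if_neg h2, if_neg h3, abs_zero]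
      exact h0
  · rw [if_pos h1, abs_zero]
    exact h0

lemma ee_le_W1 {η : ℝ} {S : ℕ} (hS : S ≠ 0) {A : ℕ → ℝ} (hη : 0 < η) (hA : LD η A) :
    ∑' a : ℕ, ENNReal.ofReal (|ee S A a| / a) ≤ W1 η S := by
  rw [tsum_eq_sum (s := (K0 S).divisors)]
  · exact Finset.sum_le_sum fun a _ => ENNReal.ofReal_le_ofReal (ee_le_wt S hη hA a)
  · intro a ha
    have h0 : ee S A a = 0 := by
      by_contra h1
      exact ha (ee_support hS h1)
    rw [h0]
    simp

lemma measurable_TF (f : ArithmeticFunction ℝ) : Measurable (TF f) := by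
  unfold TF
  apply Measurable.const_mul
  apply Measurable.tsum
  intro n
  fun_prop

end Z

variable [Crv]

open Z in
/-- Module Z1 -/
theorem pfZ1 : StZ1 := by
  rintro ⟨k₀, η, hk₀, hη, hTF⟩
  set CE : ℝ≥0∞ := W1 η bd ^ 2 * (2 * W2 η bd ^ 2) with hCE
  have hCE' : CE ≠ ⊤ := by
    rw [hCE]
    exact ENNReal.mul_ne_top (ENNReal.pow_ne_top (W1_ne_top _ _))
      (ENNReal.mul_ne_top (by norm_num) (ENNReal.pow_ne_top (W2_ne_top hη _)))
  refine ⟨k₀, hk₀, CE.toReal + 1, by positivity, fun m hm => ?_⟩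
  obtain ⟨A, q, κ, hA, ⟨hq, hκ, hfe⟩, hm', h1, h2⟩ := hTF m hm
  have hth : Measurable (theta m) := by
    have h3 := measurable_TF (cf bd A)
    have h4 : TF (cf bd A) = theta m := funext (TF_cf hm')
    rwa [h4] at h3
  have hTH : Measurable (TH A) := measurable_TF (af A hA)
  have e1 : J2 (theta m) 0 ≤ (∑' a : ℕ, ENNReal.ofReal (|ee bd A a| / a)) ^ 2 *
      J2 (TH A) 0 := by
    refine J2_comb hTH (fun a => ee bd A a) (by simp) (fun u hu => ?_) le_rfl
    have h := TF_mul (PB_ee bd hη hA) (PB_af hη hA) hu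
    rw [ee_mul bd hA, TF_cf hm'] at h
    exact h
  have e2 : J2 (TH A) (1 / √q) ≤ (∑' a : ℕ, ENNReal.ofReal (|sf bd A a| / a)) ^ 2 *
      J2 (theta m) (1 / √q) :=
    J2_comb hth (fun a => sf bd A a) (by simp) (fun u hu => TH_eq_theta hη hA hm' hu)
      (by positivity)
  have e3 := J2_fold (TH A) hq hκ hfe
  have hm0 : (0 : ℝ) < |(m : ℝ)| := by
    rw [abs_pos]
    exact_mod_cast hm.ne_zero
  have hk0 : (0 : ℝ) < k₀ := by exact_mod_cast hk₀
  have e4 : 1 / (3 * (k₀ * |(m : ℝ)|)) ≤ 1 / √q := by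
    apply one_div_le_one_div_of_le (Real.sqrt_pos.2 hq)
    nlinarith [mul_pos hk0 hm0]
  calc Jz m = J2 (theta m) 0 := rfl
    _ ≤ W1 η bd ^ 2 * (2 * (W2 η bd ^ 2 * J2 (theta m) (1 / √q))) := by
        refine e1.trans ?_
        rw [e3]
        gcongr
        · exact ee_le_W1 bd_ne hη hA
        · refine e2.trans ?_
          gcongr
          exact sf_le_W2 bd hη hA
    _ = CE * J2 (theta m) (1 / √q) := by rw [hCE]; ring
    _ ≤ ENNReal.ofReal (CE.toReal + 1) * J2 (theta m) (1 / (3 * (k₀ * |(m : ℝ)|))) := by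
        gcongr
        · rw [← ENNReal.ofReal_toReal hCE']
          apply ENNReal.ofReal_le_ofReal
          rw [ENNReal.toReal_ofReal ENNReal.toReal_nonneg]
          linarith
        · exact J2_anti _ e4
    _ = _ := rfl

end P004G
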